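import Vale.Agent.N103X.Main

namespace Vale.Agent.Results.P103.A0DimensionEleven

open Vale.Agent.N103X.Def Filter Topology
open scoped Manifold ContDiff

theorem result :
    (∀ m ≥ 11, ∃ (M : Type) (_ : MetricSpace M) (_ : ChartedSpace (Eu m) M),
      Closed m M ∧ ConnectedSpace M ∧ (13 ≤ m → SimplyConnectedSpace M) ∧ Fails (𝓡 m) m M) ∧
    ∀ a, a = 1 ∨ a = 3 → ∀ k ≥ 8, ∀ (N : Type) [MetricSpace N] [ChartedSpace (Eu k) N],
      Closed k N → SpheresFail a k N := by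
  refine ⟨fun m hm => ?_, fun a ha k hk N _ _ ⟨_, _, _⟩ => ?_⟩
  · obtain ⟨M, _, _, h0, h2, _, h1⟩ := Vale.Agent.N103X.dims hm
    exact ⟨M, _, _, ⟨h0, h2, inferInstance⟩, ‹_›, h1⟩
  · have := Vale.Agent.N103X.nonempty_Sp
    obtain ⟨g, hg⟩ := Vale.Agent.N103X.products ha hk N
    exact hg.fails (by omega)

end Vale.Agent.Results.P103.A0DimensionEleven
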